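import Vale.Agent.P266.Local

/-!
# P266: the base of a cover

Derivations of a local algebra with parameters: polynomials in the parameters in stable ideals.
-/

noncomputable section

namespace Vale.Agent.P266.Cover

open MvPolynomial

variable {Q : Type*} [CommRing Q] [Algebra ℂ Q]

lemma der_aeval {m : ℕ} (D : Derivation ℂ Q Q) (y : Fin m → Q) (f : Pol m) :
    D (aeval y f) = ∑ l, aeval y (pderiv l f) * D (y l) := by
  classical
  induction f using MvPolynomial.induction_on with
  | C c => simp [aeval_C]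
  | add p q hp hq => simp [hp, hq, add_mul, Finset.sum_add_distrib]
  | mul_X p i hp =>
    simp only [map_mul, Derivation.leibniz, hp, smul_eq_mul, map_add, add_mul, Finset.sum_add_distrib,
      Finset.mul_sum, pderiv_X, aeval_X]
    congr 1
    · rw [Finset.sum_eq_single i]
      · simp
      · intro b _ hb
        simp [Pi.single_eq_of_ne (Ne.symm hb)]
      · simp
    · exact Finset.sum_congr rfl fun _ _ ↦ by ring

/-- A proper stable ideal contains no polynomial in dual parameters. -/
lemma eq_zero_of_mem_stable {m : ℕ} {I : Ideal Q} (hI : I ≠ ⊤) (D : Fin m → Derivation ℂ Q Q)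
    (y : Fin m → Q) (hst : ∀ k, ∀ a ∈ I, D k a ∈ I)
    (hM : IsUnit (Matrix.of fun k l ↦ D k (y l)).det) (f : Pol m) (hf : aeval y f ∈ I) : f = 0 := by
  induction hn : f.totalDegree using Nat.strong_induction_on generalizing f with
  | _ n ih =>
    set M : Matrix (Fin m) (Fin m) Q := Matrix.of fun k l ↦ D k (y l)
    set a : Fin m → Q := fun l ↦ aeval y (pderiv l f)
    have h1 : ∀ k, Matrix.mulVec M a k ∈ I := fun k ↦ by
      have := hst k _ hf
      rw [der_aeval] at this
      simpa [Matrix.mulVec, dotProduct, M, a, mul_comm] using this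
    have h2 : ∀ l, a l ∈ I := fun l ↦ by
      have h := congrFun (Matrix.mulVec_mulVec a M.adjugate M) l
      rw [Matrix.adjugate_mul, Matrix.smul_mulVec, Matrix.one_mulVec] at h
      refine (Ideal.unit_mul_mem_iff_mem I hM).mp ?_
      rw [show M.det * a l = Matrix.mulVec M.adjugate (Matrix.mulVec M a) l from h.symm]
      change ∑ k, M.adjugate l k * Matrix.mulVec M a k ∈ I
      exact I.sum_mem fun k _ ↦ I.mul_mem_left _ (h1 k)
    have h3 : ∀ l, pderiv l f = 0 := fun l ↦ by
      by_contra hne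
      exact hne (ih _ (hn ▸ totalDegree_pderiv_lt hne) _ (h2 l) rfl)
    rw [eq_C_of_pderiv_eq_zero h3]
    by_contra hne
    refine hI (I.eq_top_of_isUnit_mem hf ?_)
    rw [eq_C_of_pderiv_eq_zero h3, aeval_C]
    exact (Ne.isUnit fun h0 ↦ hne (by rw [h0, map_zero])).map _

variable [IsDomain Q]

/-- Every element is a quotient of two elements integral over the parameters, the denominator a
unit. -/
def IntegralUpToUnit {d : ℕ} (x : Fin d → Q) : Prop :=
  ∀ q : Q, ∃ s p : Q, IsUnit s ∧ s * q = p ∧ (aeval (R := ℂ) x).toRingHom.IsIntegralElem s ∧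
    (aeval (R := ℂ) x).toRingHom.IsIntegralElem p

lemma der_eq_zero {d : ℕ} {x : Fin d → Q} (hint : IntegralUpToUnit x) (E : Derivation ℂ Q Q)
    (hE : ∀ l, E (x l) = 0) : E = 0 := by
  let : Algebra (Pol d) Q := (aeval (R := ℂ) x).toRingHom.toAlgebra
  have hP : ∀ c : Pol d, E (algebraMap (Pol d) Q c) = 0 := fun c ↦ by
    rw [RingHom.algebraMap_toAlgebra]
    simp [der_aeval, hE]
  have key : ∀ p : Q, IsIntegral (Pol d) p → E p = 0 := by
    intro p hp
    let B := integralClosure (Pol d) Q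
    have : CharZero Q := Algebra.charZero_of_charZero ℂ Q
    have : CharZero B :=
      ⟨fun a b h ↦ by simpa using congrArg (fun z : B ↦ (z : Q)) h⟩
    have : (⊥ : Ideal B).IsPrime := Ideal.isPrime_bot
    have : CharZero (B ⧸ (⊥ : Ideal B)) :=
      charZero_of_injective_ringHom (R := B) (f := Ideal.Quotient.mk ⊥)
        ((injective_iff_map_eq_zero _).mpr fun z hz ↦ by
          simpa using Ideal.Quotient.eq_zero_iff_mem.mp hz)
    obtain ⟨f, hf, hf'⟩ := exists_poly (P := Pol d) (⊥ : Ideal B) (⟨p, hp⟩ : B)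
    rw [Ideal.mem_bot, Subtype.ext_iff, Polynomial.aeval_subalgebra_coe] at hf
    rw [Ideal.mem_bot, Subtype.ext_iff, Polynomial.aeval_subalgebra_coe] at hf'
    have h1 := der_aeval_mem (P := Pol d) E p ⊥ (fun c i ↦ by simp [hP]) f
    rw [AddSubgroup.mem_bot] at h1
    simp only [ZeroMemClass.coe_zero] at hf hf'
    rw [hf, map_zero, zero_sub, neg_eq_zero, smul_eq_mul] at h1
    exact (mul_eq_zero.mp h1).resolve_left hf'
  ext q
  obtain ⟨s, p, hs, rfl, his, hip⟩ := hint q
  have h1 := key _ hip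
  rw [E.leibniz, key s his, smul_zero, add_zero, smul_eq_mul] at h1
  exact (mul_eq_zero.mp h1).resolve_left hs.ne_zero

lemma exists_dvd_aeval {d : ℕ} {x : Fin d → Q}
    (hinj : Function.Injective (aeval (R := ℂ) x)) (hint : IntegralUpToUnit x) {b : Q} (hb : b ≠ 0) :
    ∃ f : Pol d, f ≠ 0 ∧ b ∣ aeval x f := by
  let : Algebra (Pol d) Q := (aeval (R := ℂ) x).toRingHom.toAlgebra
  obtain ⟨s, p, hs, rfl, -, hip⟩ := hint b
  have hip' : IsIntegral (Pol d) (s * b) := hip
  have : Nontrivial (Pol d) := inferInstance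
  obtain ⟨f, hf, hdvd⟩ := hip'.isAlgebraic.exists_nonzero_dvd
    (mem_nonZeroDivisors_of_ne_zero (mul_ne_zero hs.ne_zero hb))
  exact ⟨f, hf, (dvd_mul_left b s).trans hdvd⟩

/-- Modulo a prime element meeting no polynomial in all parameters but one, every element has a
nonzero multiple among these polynomials. -/
lemma exists_aeval_mem {m : ℕ} {x : Fin (m + 1) → Q}
    (hinj : Function.Injective (aeval (R := ℂ) x)) (hint : IntegralUpToUnit x) {b : Q} (hb : Prime b)
    (i : Fin (m + 1)) (h0 : ∀ f : Pol m, aeval (x ∘ i.succAbove) f ∈ Ideal.span {b} → f = 0)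
    {q : Q} (hq : ¬ b ∣ q) :
    ∃ f : Pol m, f ≠ 0 ∧ aeval (x ∘ i.succAbove) f ∈ Ideal.span {b, q} := by
  classical
  have : (Ideal.span {b}).IsPrime := (Ideal.span_singleton_prime hb.ne_zero).mpr hb
  let B := Q ⧸ Ideal.span {b}
  let π : Q →ₐ[ℂ] B := Ideal.Quotient.mkₐ ℂ _
  let φ : Pol m →ₐ[ℂ] B := π.comp (aeval (R := ℂ) (x ∘ i.succAbove))
  let : Algebra (Pol m) B := φ.toRingHom.toAlgebra
  have : IsScalarTower ℂ (Pol m) B :=
    IsScalarTower.of_algebraMap_eq fun c ↦ (φ.commutes c).symm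
  have hφ : Function.Injective φ := (injective_iff_map_eq_zero _).mpr fun f hf ↦
    h0 f (Ideal.Quotient.eq_zero_iff_mem.mp hf)
  let S := Subalgebra.algebraicClosure (Pol m) B
  have hS : ∀ c : Pol m, φ c ∈ S := fun c ↦ isAlgebraic_algebraMap c
  have hi : π (x i) ∈ S := by
    obtain ⟨F, hF, hFb⟩ := exists_dvd_aeval hinj hint hb.ne_zero
    let e := (renameEquiv ℂ (finSuccEquiv' i)).trans (optionEquivLeft ℂ (Fin m))
    refine ⟨e F, (map_ne_zero_iff _ e.injective).mpr hF, ?_⟩
    have he : ((Polynomial.aeval (π (x i))).restrictScalars ℂ).comp e.toAlgHom =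
        π.comp (aeval (R := ℂ) x) := by
      refine algHom_ext fun j ↦ ?_
      obtain rfl | ⟨l, rfl⟩ := Fin.eq_self_or_eq_succAbove i j
      · simp [e]
      · simp [e, φ, RingHom.algebraMap_toAlgebra]
    have := DFunLike.congr_fun he F
    exact this.trans (Ideal.Quotient.eq_zero_iff_mem.mpr (Ideal.mem_span_singleton.mpr hFb))
  have hall : ∀ F : Pol (m + 1), π (aeval x F) ∈ S := by
    intro F
    induction F using MvPolynomial.induction_on with
    | C c =>
      rw [aeval_C, AlgHom.commutes, IsScalarTower.algebraMap_apply ℂ (Pol m) B]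
      exact S.algebraMap_mem _
    | add a c ha hc => rw [map_add, map_add]; exact S.add_mem ha hc
    | mul_X a j ha =>
      rw [map_mul, map_mul, aeval_X]
      refine S.mul_mem ha ?_
      obtain rfl | ⟨l, rfl⟩ := Fin.eq_self_or_eq_succAbove i j
      · exact hi
      · simpa [φ] using hS (X l)
  obtain ⟨s, p, hs, rfl, -, Φ, hmon, hΦ⟩ := hint q
  have hint' : IsIntegral S (π (s * q)) := by
    refine ⟨Φ.map ((π.comp (aeval (R := ℂ) x)).toRingHom.codRestrict S hall), hmon.map _, ?_⟩
    rw [Polynomial.eval₂_map]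
    have : (algebraMap S B).comp ((π.comp (aeval (R := ℂ) x)).toRingHom.codRestrict S hall) =
        π.toRingHom.comp (aeval (R := ℂ) x).toRingHom := RingHom.ext fun _ ↦ rfl
    rw [this]
    exact (Polynomial.hom_eval₂ Φ _ π.toRingHom _).symm.trans (by rw [hΦ, map_zero])
  have halg : IsAlgebraic (Pol m) (π (s * q)) := hint'.isAlgebraic.restrictScalars (Pol m)
  have hne : π (s * q) ≠ 0 := fun h ↦ hq <| by
    have := Ideal.mem_span_singleton.mp (Ideal.Quotient.eq_zero_iff_mem.mp h)
    exact (hs.dvd_mul_left).mp this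
  obtain ⟨f, hf, hdvd⟩ := halg.exists_nonzero_dvd (mem_nonZeroDivisors_of_ne_zero hne)
  refine ⟨f, hf, ?_⟩
  obtain ⟨z, hz⟩ := hdvd
  obtain ⟨z, rfl⟩ := Ideal.Quotient.mkₐ_surjective ℂ _ z
  rw [RingHom.algebraMap_toAlgebra] at hz
  have h1 : π (aeval (x ∘ i.succAbove) f) = π (s * q * z) := by
    rw [map_mul π (s * q) z]; exact hz
  have h2 : aeval (x ∘ i.succAbove) f - s * q * z ∈ Ideal.span {b} := Ideal.Quotient.eq.mp h1
  have h3 := add_mem (Ideal.span_mono (Set.singleton_subset_iff.mpr (Set.mem_insert b {q})) h2)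
    (Ideal.mul_mem_right z _ (Ideal.mul_mem_left _ s
      (Ideal.subset_span (Set.mem_insert_of_mem b (Set.mem_singleton q)))))
  rwa [sub_add_cancel] at h3

variable [IsLocalRing Q] {d : ℕ} (x : Fin d → Q) (v : Fin d → Derivation ℂ Q Q)

lemma isUnit_det_of_diag {ι : Type*} [Fintype ι] [DecidableEq ι] (M : Matrix ι ι Q)
    (hoff : ∀ i j, i ≠ j → M i j ∈ IsLocalRing.maximalIdeal Q) (hdiag : ∀ i, IsUnit (M i i)) :
    IsUnit M.det := by
  rw [← IsLocalRing.notMem_maximalIdeal, ← Ideal.Quotient.eq_zero_iff_mem, RingHom.map_det,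
    RingHom.mapMatrix_apply]
  have : M.map (Ideal.Quotient.mk (IsLocalRing.maximalIdeal Q)) =
      Matrix.diagonal fun i ↦ Ideal.Quotient.mk (IsLocalRing.maximalIdeal Q) (M i i) := by
    ext i j
    by_cases h : i = j
    · subst h; simp
    · rw [Matrix.map_apply, Matrix.diagonal_apply_ne _ h, Ideal.Quotient.eq_zero_iff_mem]
      exact hoff i j h
  rw [this, Matrix.det_diagonal]
  exact Finset.prod_ne_zero_iff.mpr fun i _ ↦ ((hdiag i).map _).ne_zero

variable (hV : ∀ i l, v i (x l) - (if i = l then 1 else 0) ∈ IsLocalRing.maximalIdeal Q)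
  (hinj : Function.Injective (aeval (R := ℂ) x)) (hint : IntegralUpToUnit x)

include hV in
lemma isUnit_minor {m : ℕ} (e : Fin m → Fin d) (he : Function.Injective e) :
    IsUnit (Matrix.of fun k l ↦ v (e k) (x (e l))).det := by
  refine isUnit_det_of_diag _ (fun i j h ↦ ?_) fun i ↦ ?_
  · simpa [he.ne h] using hV (e i) (e j)
  · have := hV (e i) (e i)
    rw [if_pos rfl] at this
    by_contra hu
    refine (IsLocalRing.maximalIdeal.isMaximal Q).ne_top ((Ideal.eq_top_iff_one _).mpr ?_)
    simpa using sub_mem ((IsLocalRing.mem_maximalIdeal _).mpr hu : v (e i) (x (e i)) ∈ _) this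

include hV hinj hint in
lemma exists_not_dvd_der {b : Q} (hb : Prime b) : ∃ i, ¬ b ∣ v i b := by
  by_contra! hall
  obtain ⟨f, hf, hfb⟩ := exists_dvd_aeval hinj hint hb.ne_zero
  refine hf (eq_zero_of_mem_stable (I := Ideal.span {b}) ?_ v x (fun k a ha ↦ ?_)
    (isUnit_minor x v hV id Function.injective_id) f (Ideal.mem_span_singleton.mpr hfb))
  · simpa [Ideal.span_singleton_eq_top] using hb.not_isUnit
  · obtain ⟨c, rfl⟩ := Ideal.mem_span_singleton.mp ha
    rw [Ideal.mem_span_singleton, Derivation.leibniz, smul_eq_mul, smul_eq_mul]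
    exact dvd_add (dvd_mul_right _ _) (dvd_mul_of_dvd_right (hall k) _)

include hV hinj hint in
lemma isUnit_of_stable (i : Fin d) {b : Q} (hb : Prime b) (hst : ∀ k, k ≠ i → b ∣ v k b) {q : Q}
    (hq : ¬ b ∣ q) (hqst : ∀ k, k ≠ i → v k q ∈ Ideal.span {b, q}) : IsUnit q := by
  cases d with
  | zero => exact i.elim0
  | succ m =>
    by_contra hu
    have hM := isUnit_minor x v hV i.succAbove Fin.succAbove_right_injective
    have hb1 : ∀ f : Pol m, aeval (x ∘ i.succAbove) f ∈ Ideal.span {b} → f = 0 := fun f ↦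
      eq_zero_of_mem_stable (I := Ideal.span {b})
        (by simpa [Ideal.span_singleton_eq_top] using hb.not_isUnit) (fun k ↦ v (i.succAbove k))
        (x ∘ i.succAbove) (fun k a ha ↦ by
          obtain ⟨c, rfl⟩ := Ideal.mem_span_singleton.mp ha
          rw [Ideal.mem_span_singleton, Derivation.leibniz, smul_eq_mul, smul_eq_mul]
          exact dvd_add (dvd_mul_right _ _)
            (dvd_mul_of_dvd_right (hst _ (Fin.succAbove_ne i k)) _)) hM f
    obtain ⟨f, hf, hfm⟩ := exists_aeval_mem hinj hint hb i hb1 hq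
    refine hf (eq_zero_of_mem_stable ?_ (fun k ↦ v (i.succAbove k)) (x ∘ i.succAbove)
      (fun k a ha ↦ ?_) hM f hfm)
    · refine ne_top_of_le_ne_top (IsLocalRing.maximalIdeal.isMaximal Q).ne_top ?_
      rw [Ideal.span_le]
      rintro z (rfl | rfl)
      exacts [hb.not_isUnit, hu]
    · obtain ⟨c, c', rfl⟩ := Ideal.mem_span_pair.mp ha
      simp only [map_add, Derivation.leibniz, smul_eq_mul]
      have hbI : b ∈ Ideal.span {b, q} := Ideal.subset_span (Set.mem_insert b {q})
      have hqI : q ∈ Ideal.span {b, q} := Ideal.subset_span (Set.mem_insert_of_mem b (Set.mem_singleton q))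
      refine add_mem (add_mem (Ideal.mul_mem_left _ _ ?_) (Ideal.mul_mem_right _ _ hbI))
        (add_mem (Ideal.mul_mem_left _ _ (hqst _ (Fin.succAbove_ne i k))) (Ideal.mul_mem_right _ _ hqI))
      exact Ideal.mem_of_dvd _ (hst _ (Fin.succAbove_ne i k)) hbI

include hV hint in
lemma der_mem_span (E : Derivation ℂ Q Q) : ∃ c : Fin d → Q, ∀ q, E q = ∑ k, c k * v k q := by
  classical
  set M : Matrix (Fin d) (Fin d) Q := Matrix.of fun k l ↦ v k (x l)
  have hM : IsUnit M.det := isUnit_minor x v hV id Function.injective_id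
  set c := Matrix.vecMul (fun l ↦ E (x l)) M⁻¹
  refine ⟨c, fun q ↦ ?_⟩
  have h : E - ∑ k, c k • v k = 0 := der_eq_zero hint _ fun l ↦ by
    have : Matrix.vecMul c M l = E (x l) := by
      simp only [c, Matrix.vecMul_vecMul, Matrix.nonsing_inv_mul _ hM, Matrix.vecMul_one]
    simp only [Derivation.sub_apply, der_sum_apply, Derivation.smul_apply, smul_eq_mul]
    rw [← this]
    simp [Matrix.vecMul, dotProduct, M]
  have := congrArg (fun D : Derivation ℂ Q Q ↦ D q) h
  simpa [der_sum_apply, sub_eq_zero] using this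

include hV hinj hint in
/-- A prime element preserved by all but one of the fields has unit derivative along that one. -/
lemma isUnit_der (i : Fin d) {b : Q} (hb : Prime b) (hst : ∀ k, k ≠ i → b ∣ v k b)
    (hi : ¬ b ∣ v i b) : IsUnit (v i b) := by
  refine isUnit_of_stable x v hV hinj hint i hb hst hi fun k hk ↦ ?_
  obtain ⟨c, hc⟩ := der_mem_span x v hV hint ⁅v k, v i⁆
  have h := hc b
  rw [Derivation.commutator_apply, sub_eq_iff_eq_add] at h
  rw [h]
  have hbI : b ∈ Ideal.span {b, v i b} := Ideal.subset_span (Set.mem_insert b {v i b})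
  have hiI : v i b ∈ Ideal.span {b, v i b} :=
    Ideal.subset_span (Set.mem_insert_of_mem b (Set.mem_singleton (v i b)))
  obtain ⟨t, ht⟩ := hst k hk
  refine add_mem (Ideal.sum_mem _ fun l _ ↦ Ideal.mul_mem_left _ _ ?_) ?_
  · by_cases hl : l = i
    · exact hl ▸ hiI
    · exact Ideal.mem_of_dvd _ (hst l hl) hbI
  · rw [ht, Derivation.leibniz, smul_eq_mul, smul_eq_mul]
    exact add_mem (Ideal.mul_mem_right _ _ hbI) (Ideal.mul_mem_left _ _ hiI)

end Vale.Agent.P266.Cover
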