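import Vale.Agent.P266.Setup

/-!
# P266: eigenvectors of a finite commutative group acting on an algebra over the base
-/

noncomputable section

namespace Vale.Agent.P266.Cover

variable {G : Type*} [CommGroup G] [Fintype G]
variable {Q R : Type*} [CommRing Q] [CommRing R] [Algebra ℂ Q] [Algebra ℂ R] [Algebra Q R]
  [IsScalarTower ℂ Q R]
variable (ρ : G →* (R ≃ₐ[Q] R))

/-- An eigenvector with a given character. -/
def Mono (χ : G →* ℂˣ) (f : R) : Prop := ∀ g, ρ g f = algebraMap ℂ R (χ g : ℂ) * f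

lemma rho_scalar (g : G) (c : ℂ) : ρ g (algebraMap ℂ R c) = algebraMap ℂ R c := by
  rw [IsScalarTower.algebraMap_apply ℂ Q R]; exact (ρ g).commutes _

lemma Mono.mul {χ χ' : G →* ℂˣ} {f f' : R} (h : Mono ρ χ f) (h' : Mono ρ χ' f') :
    Mono ρ (χ * χ') (f * f') := fun g ↦ by
  rw [map_mul, h g, h' g, MonoidHom.mul_apply, Units.val_mul, map_mul]; ring

lemma Mono.one : Mono ρ 1 (1 : R) := fun g ↦ by simp

lemma Mono.pow {χ : G →* ℂˣ} {f : R} (h : Mono ρ χ f) : ∀ k : ℕ, Mono ρ (χ ^ k) (f ^ k)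
  | 0 => by
    rw [show χ ^ 0 = 1 from MonoidHom.ext fun a ↦ by simp, pow_zero]
    exact Mono.one ρ
  | k + 1 => by
    rw [show χ ^ (k + 1) = χ ^ k * χ from MonoidHom.ext fun a ↦ by simp [pow_succ], pow_succ]
    exact (Mono.pow h k).mul ρ h

lemma Mono.of_base (q : Q) : Mono ρ 1 (algebraMap Q R q) := fun g ↦ by simp [(ρ g).commutes]

lemma fixed_pow_card {χ : G →* ℂˣ} {f : R} (h : Mono ρ χ f) (g : G) :
    ρ g (f ^ Fintype.card G) = f ^ Fintype.card G := by
  rw [map_pow, h g, mul_pow, ← map_pow, ← Units.val_pow_eq_pow_val, ← map_pow χ, pow_card_eq_one]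
  simp

lemma Mono.of_mul [IsDomain R] {χ : G →* ℂˣ} {q : Q} (hq : algebraMap Q R q ≠ 0) {f : R}
    (h : Mono ρ χ (algebraMap Q R q * f)) : Mono ρ χ f := fun g ↦ by
  have := h g
  rw [map_mul, (ρ g).commutes] at this
  exact mul_left_cancel₀ hq (this.trans (mul_left_comm _ _ _))

omit [Fintype G] in
lemma char_finite [Finite G] : Finite (G →* ℂˣ) := by
  refine Nat.finite_of_card_ne_zero ?_
  rw [CommGroup.card_monoidHom_of_hasEnoughRootsOfUnity]
  exact Nat.card_pos.ne'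

lemma sum_char [Fintype (G →* ℂˣ)] [DecidableEq G] (a : G) :
    ∑ χ : G →* ℂˣ, ((χ a : ℂˣ) : ℂ) = if a = 1 then (Fintype.card G : ℂ) else 0 := by
  split_ifs with ha
  · subst ha
    simp [← Nat.card_eq_fintype_card, CommGroup.card_monoidHom_of_hasEnoughRootsOfUnity]
  · obtain ⟨φ, hφ⟩ := CommGroup.exists_apply_ne_one_of_hasEnoughRootsOfUnity G ℂ ha
    have h1 : (∑ χ : G →* ℂˣ, ((χ a : ℂˣ) : ℂ)) * (φ a : ℂ) = ∑ χ : G →* ℂˣ, ((χ a : ℂˣ) : ℂ) := by
      rw [Finset.sum_mul]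
      exact Fintype.sum_equiv (Equiv.mulRight φ) _ _ fun χ ↦ by simp
    by_contra hne
    exact hφ (Units.ext (mul_left_cancel₀ hne (h1.trans (mul_one _).symm)))

/-- The projection to the eigenvectors of a character. -/
def proj (χ : G →* ℂˣ) (f : R) : R :=
  algebraMap ℂ R (Fintype.card G : ℂ)⁻¹ * ∑ g, algebraMap ℂ R ((χ g⁻¹ : ℂˣ) : ℂ) * ρ g f

lemma mono_proj (χ : G →* ℂˣ) (f : R) : Mono ρ χ (proj ρ χ f) := fun h ↦ by
  simp only [proj, map_mul, map_sum, rho_scalar]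
  conv_rhs => rw [mul_left_comm, Finset.mul_sum]
  refine congrArg (algebraMap ℂ R (Fintype.card G : ℂ)⁻¹ * ·)
    (Fintype.sum_equiv (Equiv.mulLeft h) _ _ fun g ↦ ?_)
  have e : ((χ g⁻¹ : ℂˣ) : ℂ) = (χ h : ℂ) * ((χ (h * g)⁻¹ : ℂˣ) : ℂ) := by
    rw [← Units.val_mul, ← map_mul]
    congr 2
    rw [mul_inv_rev, mul_comm g⁻¹, mul_inv_cancel_left]
  rw [Equiv.coe_mulLeft, e, map_mul, map_mul ρ h g, AlgEquiv.mul_apply, mul_assoc]

lemma sum_proj [Fintype (G →* ℂˣ)] (f : R) : ∑ χ : G →* ℂˣ, proj ρ χ f = f := by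
  classical
  simp only [proj, ← Finset.mul_sum]
  rw [Finset.sum_comm]
  simp only [← Finset.sum_mul, ← map_sum, sum_char, inv_eq_one]
  rw [Finset.sum_eq_single (1 : G) (fun g _ hg ↦ by rw [if_neg hg]; simp) (by simp)]
  rw [if_pos rfl, ← mul_assoc, ← map_mul,
    inv_mul_cancel₀ (Nat.cast_ne_zero.mpr Fintype.card_ne_zero)]
  simp

/-- The conjugate of a derivation by an automorphism. -/
def conj (g : G) (D : Derivation ℂ R R) : Derivation ℂ R R :=
  Derivation.mk'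
    { toFun := fun f ↦ ρ g (D (ρ g⁻¹ f))
      map_add' := fun a b ↦ by simp
      map_smul' := fun c a ↦ by
        simp only [Algebra.smul_def, RingHom.id_apply, map_mul, rho_scalar, Derivation.leibniz,
          D.map_algebraMap, smul_eq_mul, Algebra.algebraMap_self, RingHom.id_apply, mul_zero, add_zero,
          map_mul, rho_scalar] }
    (fun a b ↦ by
      have hg : ∀ z, ρ g (ρ g⁻¹ z) = z := fun z ↦ by
        rw [← AlgEquiv.mul_apply, ← map_mul, mul_inv_cancel, map_one, AlgEquiv.one_apply]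
      simp only [LinearMap.coe_mk, AddHom.coe_mk, smul_eq_mul, map_mul, map_add, Derivation.leibniz, hg])

lemma conj_algebraMap (g : G) (D : Derivation ℂ R R) (q : Q) :
    conj ρ g D (algebraMap Q R q) = ρ g (D (algebraMap Q R q)) := by
  change ρ g (D (ρ g⁻¹ _)) = _
  rw [(ρ g⁻¹).commutes]

/-- The component of a derivation belonging to a character. -/
def comp (χ : G →* ℂˣ) (D : Derivation ℂ R R) : Derivation ℂ R R :=
  algebraMap ℂ R (Fintype.card G : ℂ)⁻¹ • ∑ g, algebraMap ℂ R ((χ g⁻¹ : ℂˣ) : ℂ) • conj ρ g D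

lemma comp_algebraMap (χ : G →* ℂˣ) (D : Derivation ℂ R R) (q : Q) :
    comp ρ χ D (algebraMap Q R q) = proj ρ χ (D (algebraMap Q R q)) := by
  simp only [comp, proj, Derivation.smul_apply, der_sum_apply, conj_algebraMap, smul_eq_mul]

end Vale.Agent.P266.Cover
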