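import Vale.Agent.P266.Cover.Base
import Vale.Agent.P266.Cover.Char

/-!
# P266: a normal abelian cover of a factorial base with the residue property is regular
-/

noncomputable section

namespace Vale.Agent.P266.Cover

open MvPolynomial IsLocalRing

/-- The datum of a normal local cover of a factorial local base by a finite commutative group. -/
structure Cov (G Q R : Type*) [CommGroup G] [Fintype G] [CommRing Q] [CommRing R] [Algebra ℂ Q]
    [Algebra ℂ R] [Algebra Q R] [IsScalarTower ℂ Q R] [IsLocalRing R] [IsLocalRing Q] where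
  ρ : G →* (R ≃ₐ[Q] R)
  inj : Function.Injective (algebraMap Q R)
  fixed : ∀ f, (∀ g, ρ g f = f) → ∃ q, algebraMap Q R q = f
  lies_over : ∀ q, q ∈ maximalIdeal Q → algebraMap Q R q ∈ maximalIdeal R

variable {G Q R : Type*} [CommGroup G] [Fintype G] [CommRing Q] [CommRing R] [Algebra ℂ Q]
  [Algebra ℂ R] [Algebra Q R] [IsScalarTower ℂ Q R] [IsLocalRing R] [IsLocalRing Q]
  [IsDomain Q] [IsDomain R] [IsIntegrallyClosed R] [UniqueFactorizationMonoid Q]
  (C : Cov G Q R)

local instance : CharZero Q := Algebra.charZero_of_charZero ℂ Q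

include C in
lemma Cov.dvd_of_dvd {a c : Q} (h : algebraMap Q R a ∣ algebraMap Q R c) : a ∣ c := by
  by_cases ha : a = 0
  · subst ha
    rw [map_zero, zero_dvd_iff, map_eq_zero_iff _ C.inj] at h
    exact h ▸ dvd_rfl
  obtain ⟨r, hr⟩ := h
  obtain ⟨q, rfl⟩ := C.fixed r fun g ↦ by
    have := congrArg (C.ρ g) hr
    rw [map_mul, (C.ρ g).commutes, (C.ρ g).commutes, hr] at this
    exact (mul_left_cancel₀ ((map_ne_zero_iff _ C.inj).mpr ha) this).symm
  exact ⟨q, C.inj (by rw [hr, map_mul])⟩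

lemma Cov.exists_pow {χ : G →* ℂˣ} {f : R} (h : Mono C.ρ χ f) :
    ∃ w : Q, algebraMap Q R w = f ^ Fintype.card G :=
  C.fixed _ (fixed_pow_card C.ρ h)

/-- The branching orders along a prime element of the base. -/
def Cov.Br (b : Q) (r : ℕ) : Prop :=
  0 < r ∧ r < Fintype.card G ∧ ∃ (χ : G →* ℂˣ) (f : R) (w : Q), Mono C.ρ χ f ∧
    algebraMap Q R (b ^ r * w) = f ^ Fintype.card G ∧ ¬ b ∣ w

omit [IsDomain R] [IsIntegrallyClosed R] [UniqueFactorizationMonoid Q] in
lemma Cov.Br.of_associated {b b' : Q} (h : Associated b' b) {r : ℕ} (hr : C.Br b r) : C.Br b' r := by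
  obtain ⟨ε, rfl⟩ := h
  obtain ⟨h0, hn, χ, f, w, hf, hw, hdvd⟩ := hr
  refine ⟨h0, hn, χ, f, (ε : Q) ^ r * w, hf, by rw [← hw, mul_pow, mul_assoc], fun h ↦ hdvd ?_⟩
  rw [Units.mul_right_dvd]
  exact (ε.isUnit.pow r).dvd_mul_left.mp h

lemma Cov.Br.compl {b : Q} (hb : Prime b) {r : ℕ} (hr : C.Br b r) :
    C.Br b (Fintype.card G - r) := by
  obtain ⟨h0, hn, χ, f, w, hf, hw, hdvd⟩ := hr
  set n := Fintype.card G
  have hn0 : n ≠ 0 := by omega
  have hbr : algebraMap Q R b ^ (r - 1) ∣ f ^ (n - 1) := by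
    rw [← IsIntegrallyClosed.pow_dvd_pow_iff hn0, ← pow_mul f, mul_comm (n - 1) n, pow_mul f, ← hw,
      ← map_pow, ← map_pow, ← map_pow]
    refine map_dvd _ ?_
    rw [mul_pow, ← pow_mul, ← pow_mul]
    refine Dvd.dvd.mul_right (pow_dvd_pow b ?_) _
    have : r * (n - 1) = (r - 1) * n + (n - r) := by
      obtain ⟨a, rfl⟩ : ∃ a, r = a + 1 := ⟨r - 1, by omega⟩
      obtain ⟨c, hc⟩ : ∃ c, n = a + 1 + c := ⟨n - (a + 1), by omega⟩
      rw [hc, show a + 1 + c - 1 = a + c by omega, show a + 1 - 1 = a by omega,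
        show a + 1 + c - (a + 1) = c by omega]
      ring
    omega
  obtain ⟨f', hf'⟩ := hbr
  have hq : algebraMap Q R (b ^ (r - 1)) ≠ 0 := (map_ne_zero_iff _ C.inj).mpr (pow_ne_zero _ hb.ne_zero)
  refine ⟨by omega, by omega, χ ^ (n - 1), f', w ^ (n - 1), ?_, ?_, fun h ↦ hdvd (hb.dvd_of_dvd_pow h)⟩
  · refine Mono.of_mul C.ρ hq ?_
    rw [map_pow, ← hf']
    exact hf.pow C.ρ _
  · refine mul_left_cancel₀ (pow_ne_zero n hq) ?_
    have e : r * (n - 1) = (r - 1) * n + (n - r) := by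
      obtain ⟨a, rfl⟩ : ∃ a, r = a + 1 := ⟨r - 1, by omega⟩
      obtain ⟨c, hc⟩ : ∃ c, n = a + 1 + c := ⟨n - (a + 1), by omega⟩
      rw [hc, show a + 1 + c - 1 = a + c by omega, show a + 1 - 1 = a by omega,
        show a + 1 + c - (a + 1) = c by omega]
      ring
    calc algebraMap Q R (b ^ (r - 1)) ^ n * algebraMap Q R (b ^ (n - r) * w ^ (n - 1))
        = algebraMap Q R (b ^ r * w) ^ (n - 1) := by
          simp only [← map_pow, ← map_mul]
          congr 1
          rw [mul_pow, ← pow_mul, ← pow_mul, e, pow_add]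
          ring
      _ = (f ^ n) ^ (n - 1) := by rw [hw]
      _ = (f ^ (n - 1)) ^ n := by rw [← pow_mul, ← pow_mul, mul_comm]
      _ = algebraMap Q R (b ^ (r - 1)) ^ n * f' ^ n := by rw [hf', mul_pow, map_pow]

lemma Cov.exists_gen {χ : G →* ℂˣ} {e : R} (he : Mono C.ρ χ e) (he0 : e ≠ 0) :
    ∃ (u : R) (α : Q), Mono C.ρ χ u ∧ α ≠ 0 ∧ algebraMap Q R α = u ^ Fintype.card G ∧
      (∀ b, Prime b → ¬ b ^ Fintype.card G ∣ α) ∧
      ∀ f, Mono C.ρ χ f → ∃ t : Q, f = algebraMap Q R t * u := by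
  classical
  set n := Fintype.card G with hn
  have hn0 : n ≠ 0 := Fintype.card_ne_zero
  obtain ⟨w0, hw0⟩ := C.exists_pow he
  obtain ⟨α, ⟨u, hu, hα0, hα⟩, hmin⟩ := (wellFounded_dvdNotUnit (α := Q)).has_min
    {α | ∃ u, Mono C.ρ χ u ∧ α ≠ 0 ∧ algebraMap Q R α = u ^ n}
    ⟨w0, e, he, fun h ↦ he0 (by
      rw [h, map_zero] at hw0
      exact eq_zero_of_pow_eq_zero hw0.symm), hw0⟩
  have hfree : ∀ b, Prime b → ¬ b ^ n ∣ α := by
    intro b hb hdvd
    obtain ⟨u', hu'⟩ : algebraMap Q R b ∣ u := by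
      rw [← IsIntegrallyClosed.pow_dvd_pow_iff hn0, ← hα, ← map_pow]
      exact map_dvd _ hdvd
    obtain ⟨α', hα'⟩ := hdvd
    have hα'0 : α' ≠ 0 := fun h ↦ hα0 (by rw [hα', h, mul_zero])
    refine hmin α' ⟨u', Mono.of_mul C.ρ ((map_ne_zero_iff _ C.inj).mpr hb.ne_zero) (hu' ▸ hu), hα'0,
      mul_left_cancel₀ (pow_ne_zero n ((map_ne_zero_iff _ C.inj).mpr hb.ne_zero)) ?_⟩
      ⟨hα'0, b ^ n, fun h ↦ hb.not_isUnit ((isUnit_pow_iff hn0).mp h), by rw [hα', mul_comm]⟩
    rw [← map_pow, ← map_mul, ← hα', hα, hu', mul_pow, map_pow]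
  refine ⟨u, α, hu, hα0, hα, hfree, fun f hf ↦ ?_⟩
  obtain ⟨p, hp⟩ := C.fixed (f * u ^ (n - 1)) fun g ↦ by
    have h := (hf.mul C.ρ (hu.pow C.ρ (n - 1))) g
    rwa [MonoidHom.mul_apply, MonoidHom.pow_apply, ← pow_succ',
      Nat.sub_add_cancel (Nat.one_le_iff_ne_zero.mpr hn0), ← map_pow χ, pow_card_eq_one, map_one,
      Units.val_one, map_one, one_mul] at h
  obtain ⟨z, hz⟩ := C.exists_pow hf
  have hp' : p ^ n = z * α ^ (n - 1) := C.inj (by
    rw [map_pow, hp, map_mul, hz, map_pow, hα, mul_pow, ← pow_mul, ← pow_mul, mul_comm (n - 1) n])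
  obtain ⟨t, ht⟩ : α ∣ p := by
    -- every exponent of `α` is below `n`
    suffices ∀ a : Q, a ≠ 0 → a ∣ α → a ^ (n - 1) ∣ p ^ n → a ∣ p from
      this α hα0 dvd_rfl (hp' ▸ dvd_mul_left _ _)
    intro a
    induction a using UniqueFactorizationMonoid.induction_on_coprime with
    | h0 => intro h; exact absurd rfl h
    | h1 ha => intro _ _ _; exact ha.dvd
    | hpr k hb =>
      intro _ hka hdvd
      have hk : k < n := by
        by_contra hk
        exact hfree _ hb ((pow_dvd_pow _ (not_lt.mp hk)).trans hka)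
      by_cases hp0 : p = 0
      · simp [hp0]
      obtain ⟨s, p', hp1, rfl⟩ := WfDvdMonoid.max_power_factor hp0 hb.irreducible
      refine Dvd.dvd.mul_right (pow_dvd_pow _ ?_) _
      by_contra hs
      rw [← pow_mul, mul_pow, ← pow_mul] at hdvd
      have h2 : (n - 1) * k ≤ s * n := by
        by_contra h2
        have h3 := (pow_dvd_pow _ (show s * n + 1 ≤ k * (n - 1) by rw [mul_comm k]; omega)).trans hdvd
        rw [pow_succ, mul_dvd_mul_iff_left (pow_ne_zero _ hb.ne_zero)] at h3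
        exact hp1 (hb.dvd_of_dvd_pow h3)
      obtain ⟨c, rfl⟩ : ∃ c, k = s + 1 + c := ⟨k - (s + 1), by omega⟩
      obtain ⟨e, hne⟩ : ∃ e, n = s + 1 + c + 1 + e := ⟨n - (s + 1 + c + 1), by omega⟩
      rw [hne, show s + 1 + c + 1 + e - 1 = s + 1 + c + e by omega] at h2
      nlinarith
    | hcp hcop ihx ihy =>
      intro hxy hdvd hpow
      rw [mul_pow] at hpow
      exact IsRelPrime.mul_dvd @hcop (ihx (left_ne_zero_of_mul hxy) ((dvd_mul_right _ _).trans hdvd)
          ((dvd_mul_right _ _).trans hpow))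
        (ihy (right_ne_zero_of_mul hxy) ((dvd_mul_left _ _).trans hdvd)
          ((dvd_mul_left _ _).trans hpow))
  refine ⟨t, mul_right_cancel₀ (b := u ^ (n - 1)) (pow_ne_zero (n - 1) fun hu0 ↦ hα0 ?_) ?_⟩
  · exact (map_eq_zero_iff _ C.inj).mp (by rw [hα, hu0, zero_pow hn0])
  · rw [← hp, ht, map_mul, hα, mul_assoc, ← pow_succ',
      Nat.sub_add_cancel (Nat.one_le_iff_ne_zero.mpr hn0), mul_comm]

/-- The data left after choosing eigen derivations and their reduced coefficients. -/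
structure Frame (d : ℕ) where
  D : Fin d → Derivation ℂ R R
  u : Fin d → R
  α : Fin d → Q
  v : Fin d → Derivation ℂ Q Q
  hα : ∀ i, algebraMap Q R (α i) = u i ^ Fintype.card G
  hα0 : ∀ i, α i ≠ 0
  hfree : ∀ i b, Prime b → ¬ b ^ Fintype.card G ∣ α i
  hmono : ∀ i, ∃ χ, Mono C.ρ χ (u i)
  hD : ∀ i q, D i (algebraMap Q R q) = algebraMap Q R (v i q) * u i
  hcop : ∀ b, Prime b → ¬ algebraMap Q R b ∣ ∏ i, u i

variable {C} {d : ℕ} (F : Frame C d)

lemma Frame.pow_dvd_alpha {i : Fin d} {b : Q} (hb : Prime b) (hi : ¬ b ∣ F.v i b) {r : ℕ}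
    (hr : C.Br b r) : b ^ (Fintype.card G - r) ∣ F.α i := by
  obtain ⟨h0, hrn, χ, f, w, hf, hw, hdvd⟩ := hr
  set n := Fintype.card G
  obtain ⟨a, rfl⟩ : ∃ a, r = a + 1 := ⟨r - 1, by omega⟩
  obtain ⟨c, hn⟩ : ∃ c, n = a + 1 + c := ⟨n - (a + 1), by omega⟩
  set q : Q := ((a + 1 : ℕ) : Q) * w * F.v i b + b * F.v i w
  have hq : ¬ b ∣ q := fun h ↦ by
    rw [dvd_add_left (dvd_mul_right _ _)] at h
    refine (hb.dvd_or_dvd h).elim (fun h ↦ (hb.dvd_or_dvd h).elim (fun h ↦ ?_) hdvd) hi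
    refine hb.not_isUnit (isUnit_of_dvd_unit h ?_)
    rw [← map_natCast (algebraMap ℂ Q)]
    exact (Ne.isUnit (Nat.cast_ne_zero.mpr a.succ_ne_zero)).map _
  have hvw : F.v i (b ^ (a + 1) * w) = b ^ a * q := by
    simp only [Derivation.leibniz, Derivation.leibniz_pow, smul_eq_mul, nsmul_eq_mul,
      Nat.add_sub_cancel, q]
    ring
  have hder : (n : R) * f ^ (n - 1) * F.D i f = algebraMap Q R (b ^ a * q) * F.u i := by
    rw [← hvw, ← F.hD, hw, Derivation.leibniz_pow, nsmul_eq_mul, smul_eq_mul]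
    ring
  have hdiv : algebraMap Q R ((b ^ (a + 1) * w) ^ (n - 1)) ∣
      algebraMap Q R ((b ^ a * q) ^ n * F.α i) := by
    refine ⟨((n : R) * F.D i f) ^ n, ?_⟩
    rw [map_mul, map_pow (algebraMap Q R) (b ^ a * q) n, F.hα, ← mul_pow, ← hder,
      map_pow _ (b ^ (a + 1) * w), hw, ← pow_mul, mul_comm n, pow_mul, ← mul_pow]
    ring_nf
  have h1 := C.dvd_of_dvd hdiv
  rw [mul_pow (b ^ (a + 1)), ← pow_mul, mul_pow (b ^ a), ← pow_mul] at h1
  have e : (a + 1) * (n - 1) = a * n + c := by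
    rw [hn, show a + 1 + c - 1 = a + c by omega]; ring
  rw [e, pow_add, mul_assoc, mul_assoc, mul_dvd_mul_iff_left (pow_ne_zero _ hb.ne_zero)] at h1
  have h2 := hb.pow_dvd_of_dvd_mul_left c (fun h ↦ hq (hb.dvd_of_dvd_pow h))
    ((dvd_mul_right _ _).trans h1)
  rwa [show n - (a + 1) = c by omega]

lemma Frame.not_pow_dvd_prod {b : Q} (hb : Prime b) : ¬ b ^ Fintype.card G ∣ ∏ i, F.α i := fun h ↦ by
  refine F.hcop b hb ?_
  rw [← IsIntegrallyClosed.pow_dvd_pow_iff (Fintype.card_ne_zero (α := G)), ← Finset.prod_pow,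
    ← map_pow, Finset.prod_congr rfl fun i _ ↦ (F.hα i).symm, ← map_prod]
  exact map_dvd _ h

lemma Frame.false_of_two {i k : Fin d} (hik : i ≠ k) {b : Q} (hb : Prime b) {r s : ℕ}
    (hi : b ^ r ∣ F.α i) (hk : b ^ s ∣ F.α k) (hrs : Fintype.card G ≤ r + s) : False := by
  refine F.not_pow_dvd_prod hb ((pow_dvd_pow b hrs).trans ?_)
  rw [pow_add, ← Finset.mul_prod_erase _ _ (Finset.mem_univ i)]
  exact mul_dvd_mul hi (hk.trans (Finset.dvd_prod_of_mem _ (by simp [hik.symm])))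

lemma Frame.unique_index {b : Q} (hb : Prime b) {r : ℕ} (hr : C.Br b r) {i k : Fin d}
    (hi : ¬ b ∣ F.v i b) (hk : ¬ b ∣ F.v k b) : i = k := by
  by_contra hik
  have := hr.2.1
  exact F.false_of_two hik hb (F.pow_dvd_alpha hb hi hr) (F.pow_dvd_alpha hb hk (hr.compl C hb))
    (by omega)

lemma Frame.br_alpha {b : Q} (hb : Prime b) {i : Fin d} (h : b ∣ F.α i) :
    ∃ r, C.Br b r ∧ b ^ r ∣ F.α i := by
  obtain ⟨s, w, hw, he⟩ := WfDvdMonoid.max_power_factor (F.hα0 i) hb.irreducible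
  obtain ⟨χ, hχ⟩ := F.hmono i
  refine ⟨s, ⟨?_, ?_, χ, F.u i, w, hχ, by rw [← he, F.hα], hw⟩, he ▸ dvd_mul_right _ _⟩
  · by_contra hs
    rw [Nat.eq_zero_of_not_pos hs, pow_zero, one_mul] at he
    exact hw (he ▸ h)
  · by_contra hs
    exact F.hfree i b hb (he ▸ (pow_dvd_pow b (not_lt.mp hs)).trans (dvd_mul_right _ _))

variable {x : Fin d → Q}
  (hV : ∀ i l, F.v i (x l) - (if i = l then 1 else 0) ∈ maximalIdeal Q)
  (hinj : Function.Injective (aeval (R := ℂ) x)) (hint : IntegralUpToUnit x)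

include hV hinj hint in
lemma Frame.exists_coord (hxm : ∀ l, x l ∈ maximalIdeal Q) (i : Fin d) :
    ∃ (y : Q) (z : R), y ∈ maximalIdeal Q ∧ z ∈ maximalIdeal R ∧ z ∣ algebraMap Q R y ∧
      (∀ k, k ≠ i → F.v k y ∈ maximalIdeal Q) ∧ IsUnit (F.v i y) ∧
      ∀ b r, Prime b → C.Br b r → ¬ b ∣ F.v i b →
        ∀ f w, algebraMap Q R (b ^ r * w) = f ^ Fintype.card G → z ∣ f := by
  classical
  set n := Fintype.card G
  have hn0 : n ≠ 0 := Fintype.card_ne_zero
  by_cases hex : ∃ b r, Prime b ∧ C.Br b r ∧ ¬ b ∣ F.v i b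
  swap
  · refine ⟨x i, algebraMap Q R (x i), hxm i, C.lies_over _ (hxm i), dvd_rfl, fun k hk ↦ ?_, ?_, ?_⟩
    · simpa [hk] using hV k i
    · by_contra hu
      refine (maximalIdeal.isMaximal Q).ne_top ((Ideal.eq_top_iff_one _).mpr ?_)
      simpa using sub_mem ((mem_maximalIdeal _).mpr hu : F.v i (x i) ∈ _) (hV i i)
    · exact fun b r hb hr hi ↦ absurd ⟨b, r, hb, hr, hi⟩ hex
  obtain ⟨b, r₀, hb, hr₀, hi⟩ := hex
  have hbr : ∃ r, C.Br b r := ⟨r₀, hr₀⟩
  set g := Nat.find hbr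
  have hg : C.Br b g := Nat.find_spec hbr
  have hst : ∀ k, k ≠ i → b ∣ F.v k b := fun k hk ↦ by
    by_contra h
    exact hk (F.unique_index hb hr₀ h hi)
  -- any branched prime with the same index is associated
  have huniq : ∀ b', Prime b' → (∃ r, C.Br b' r) → ¬ b' ∣ F.v i b' → Associated b b' := by
    rintro b' hb' ⟨r, hr⟩ hi'
    by_contra hassoc
    refine hb'.not_isUnit (isUnit_of_stable x F.v hV hinj hint i hb hst
      (fun h ↦ hassoc (hb.associated_of_dvd hb' h)) fun k hk ↦ ?_)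
    have h : b' ∣ F.v k b' := by
      by_contra h
      exact hk (F.unique_index hb' hr h hi')
    exact Ideal.mem_of_dvd _ h (Ideal.subset_span (Set.mem_insert_of_mem b (Set.mem_singleton b')))
  obtain ⟨s, w, hw, he⟩ := WfDvdMonoid.max_power_factor (F.hα0 i) hb.irreducible
  have hs : n - g ≤ s := by
    by_contra hs
    have h := F.pow_dvd_alpha hb hi hg
    rw [he] at h
    have h' := (pow_dvd_pow b (show s + 1 ≤ n - g by omega)).trans h
    rw [pow_succ, mul_dvd_mul_iff_left (pow_ne_zero _ hb.ne_zero)] at h'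
    exact hw h'
  have hsn : s < n := by
    by_contra hs'
    exact F.hfree i b hb (he ▸ (pow_dvd_pow b (not_lt.mp hs')).trans (dvd_mul_right _ _))
  have hwu : IsUnit w := by
    by_contra hwu
    obtain ⟨b', hb', hdvd⟩ := WfDvdMonoid.exists_irreducible_factor hwu
      (fun h ↦ hw (h ▸ dvd_zero b))
    replace hb' : Prime b' := UniqueFactorizationMonoid.irreducible_iff_prime.mp hb'
    obtain ⟨r, hr, hrd⟩ := F.br_alpha hb' (hdvd.trans (he ▸ dvd_mul_left _ _))
    obtain ⟨j, hj⟩ := exists_not_dvd_der x F.v hV hinj hint hb'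
    by_cases hji : j = i
    · exact hw ((huniq b' hb' ⟨r, hr⟩ (hji ▸ hj)).dvd.trans hdvd)
    · exact F.false_of_two hji hb' (F.pow_dvd_alpha hb' hj hr) hrd (by omega)
  obtain ⟨ε, rfl⟩ := hwu
  obtain ⟨z, hz⟩ : F.u i ∣ algebraMap Q R b := by
    rw [← IsIntegrallyClosed.pow_dvd_pow_iff hn0, ← F.hα, ← map_pow, he]
    exact map_dvd _ ((Units.mul_right_dvd).mpr (pow_dvd_pow b hsn.le))
  have hzn : z ^ n = algebraMap Q R (b ^ (n - s) * ((ε⁻¹ : Qˣ) : Q)) := by
    refine mul_left_cancel₀ ((map_ne_zero_iff _ C.inj).mpr (F.hα0 i)) ?_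
    rw [← map_mul, F.hα, ← mul_pow, ← hz, he, ← map_pow]
    congr 1
    rw [mul_mul_mul_comm, ← pow_add, Nat.add_sub_cancel' hsn.le, Units.mul_inv, mul_one]
  have hzmax : z ∈ maximalIdeal R := by
    rw [mem_maximalIdeal]
    intro hu
    have h1 : algebraMap Q R b ∣ z ^ n := by
      rw [hzn]
      exact map_dvd _ (Dvd.dvd.mul_right (dvd_pow_self b (by omega)) _)
    exact (mem_maximalIdeal _).mp (C.lies_over b ((mem_maximalIdeal _).mpr hb.not_isUnit))
      (isUnit_of_dvd_unit h1 (hu.pow n))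
  refine ⟨b, z, (mem_maximalIdeal _).mpr hb.not_isUnit, hzmax, ⟨F.u i, by rw [hz, mul_comm]⟩,
    fun k hk ↦ Ideal.mem_of_dvd _ (hst k hk) ((mem_maximalIdeal _).mpr hb.not_isUnit),
    isUnit_der x F.v hV hinj hint i hb hst hi, fun b' r hb' hr hi' f w' hfw ↦ ?_⟩
  have hassoc := huniq b' hb' ⟨r, hr⟩ hi'
  have hgr : g ≤ r := Nat.find_min' hbr (hr.of_associated C hassoc)
  rw [← IsIntegrallyClosed.pow_dvd_pow_iff hn0, hzn, ← hfw]
  refine map_dvd _ ((Units.mul_right_dvd).mpr ?_)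
  exact ((pow_dvd_pow b (show n - s ≤ r by omega)).trans (pow_dvd_pow_of_dvd hassoc.dvd r)).trans
    (dvd_mul_right _ _)

include hV hinj hint in
lemma Frame.regular [IsNoetherianRing R] (hx : Ideal.span (Set.range x) = maximalIdeal Q)
    (hd : ringKrullDim R = d) : IsRegularLocalRing R := by
  classical
  have hxm : ∀ l, x l ∈ maximalIdeal Q := fun l ↦ hx ▸ Ideal.subset_span ⟨l, rfl⟩
  choose y z hy hz hzy hoff hdiag hbr using F.exists_coord hV hinj hint hxm
  set n := Fintype.card G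
  have hyspan : maximalIdeal Q = Ideal.span (Set.range y) := by
    refine le_antisymm ?_ (Ideal.span_le.mpr (by rintro _ ⟨l, rfl⟩; exact hy l))
    choose M hM using fun l ↦ (Submodule.mem_span_range_iff_exists_fun Q).mp
      (hx.symm ▸ hy l : y l ∈ Ideal.span (Set.range x))
    let T : Matrix (Fin d) (Fin d) Q := Matrix.of fun k l ↦ M l k
    have hT : IsUnit T.det := by
      have hk : ∀ k l, F.v k (y l) - T k l ∈ maximalIdeal Q := fun k l ↦ by
        have e : T k l = ∑ m, M l m * (if k = m then 1 else 0) := by simp [T]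
        rw [e, ← hM l, map_sum, ← Finset.sum_sub_distrib]
        refine Ideal.sum_mem _ fun m _ ↦ ?_
        rw [smul_eq_mul, Derivation.leibniz, smul_eq_mul, smul_eq_mul, add_comm, add_sub_assoc,
          ← mul_sub]
        exact add_mem (Ideal.mul_mem_right _ _ (hxm m)) (Ideal.mul_mem_left _ _ (hV k m))
      refine isUnit_det_of_diag _ (fun i j h ↦ ?_) fun i ↦ ?_
      · simpa using sub_mem (hoff j i h) (hk i j)
      · by_contra hu
        exact (mem_maximalIdeal _).mp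
          (by simpa using add_mem (hk i i) ((mem_maximalIdeal _).mpr hu : T i i ∈ _)) (hdiag i)
    have hxy : Matrix.vecMul x T = y := funext fun l ↦ by
      rw [← hM l]; simp [Matrix.vecMul, dotProduct, T, mul_comm]
    rw [← hx, Ideal.span_le]
    rintro _ ⟨l, rfl⟩
    have : x = Matrix.vecMul y T⁻¹ := by
      rw [← hxy, Matrix.vecMul_vecMul, Matrix.mul_nonsing_inv _ hT, Matrix.vecMul_one]
    rw [show x l = ∑ k, y k * T⁻¹ k l from congrFun this l]
    exact Ideal.sum_mem _ fun k _ ↦ Ideal.mul_mem_right _ _ (Ideal.subset_span ⟨k, rfl⟩)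
  set J := Ideal.span (Set.range z)
  have hQJ : ∀ q ∈ maximalIdeal Q, algebraMap Q R q ∈ J := by
    intro q hq
    rw [hyspan] at hq
    refine (Ideal.map_le_iff_le_comap.mpr ?_) (Ideal.mem_map_of_mem (algebraMap Q R) hq)
    rw [Ideal.span_le]
    rintro _ ⟨l, rfl⟩
    change algebraMap Q R (y l) ∈ J
    exact Ideal.mem_of_dvd _ (hzy l) (Ideal.subset_span (Set.mem_range_self l))
  have hmono : ∀ χ f, Mono C.ρ χ f → f ∈ maximalIdeal R → f ∈ J := by
    intro χ f hf hfm
    by_cases hf0 : f = 0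
    · exact hf0 ▸ J.zero_mem
    obtain ⟨w, hw⟩ := C.exists_pow hf
    have hw0 : w ≠ 0 := fun h ↦ hf0 (eq_zero_of_pow_eq_zero (by rw [← hw, h, map_zero]))
    have hwu : ¬ IsUnit w := fun h ↦ (mem_maximalIdeal _).mp hfm
      ((isUnit_pow_iff (Fintype.card_ne_zero (α := G))).mp (hw ▸ h.map (algebraMap Q R)))
    obtain ⟨b, hb, hbw⟩ := WfDvdMonoid.exists_irreducible_factor hwu hw0
    replace hb : Prime b := UniqueFactorizationMonoid.irreducible_iff_prime.mp hb
    obtain ⟨r, w', hw', rfl⟩ := WfDvdMonoid.max_power_factor hw0 hb.irreducible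
    rcases le_or_gt n r with hnr | hrn
    · refine Ideal.mem_of_dvd _ ?_ (hQJ b ((mem_maximalIdeal _).mpr hb.not_isUnit))
      rw [← IsIntegrallyClosed.pow_dvd_pow_iff (Fintype.card_ne_zero (α := G)), ← hw, ← map_pow]
      exact map_dvd _ ((pow_dvd_pow b hnr).trans (dvd_mul_right _ _))
    · have hr0 : 0 < r := by
        by_contra h0
        rw [Nat.eq_zero_of_not_pos h0, pow_zero, one_mul] at hbw
        exact hw' hbw
      have hBr : C.Br b r := ⟨hr0, hrn, χ, f, w', hf, hw, hw'⟩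
      obtain ⟨i, hi⟩ := exists_not_dvd_der x F.v hV hinj hint hb
      exact Ideal.mem_of_dvd _ (hbr i b r hb hBr hi f w' hw) (Ideal.subset_span ⟨i, rfl⟩)
  have := char_finite (G := G)
  have := Fintype.ofFinite (G →* ℂˣ)
  have hJ : maximalIdeal R = J := by
    refine le_antisymm (fun f hf ↦ ?_) (Ideal.span_le.mpr (by rintro _ ⟨l, rfl⟩; exact hz l))
    rw [← sum_proj C.ρ f]
    refine J.sum_mem fun χ _ ↦ hmono χ _ (mono_proj C.ρ χ f) ?_
    refine Ideal.mul_mem_left _ _ (Ideal.sum_mem _ fun g _ ↦ Ideal.mul_mem_left _ _ ?_)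
    rw [mem_maximalIdeal] at hf ⊢
    exact fun h ↦ hf (by simpa using h.map (C.ρ g).symm)
  refine IsRegularLocalRing.of_spanFinrank_maximalIdeal_le R ?_
  rw [hd, hJ]
  refine Nat.cast_le.mpr ?_
  refine (Submodule.spanFinrank_span_le_ncard_of_finite (Set.finite_range _)).trans ?_
  rw [← Set.image_univ]
  exact (Set.ncard_image_le Set.finite_univ).trans (by simp)

/-- A normal abelian cover of a factorial local base whose derivations have determinant outside
the ideal of parameters of the base is regular. -/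
theorem Cov.regular [IsNoetherianRing R] (C : Cov G Q R)
    (hscal : ∀ q : Q, ∃ c : ℂ, q - algebraMap ℂ Q c ∈ maximalIdeal Q)
    (x : Fin d → Q) (hx : Ideal.span (Set.range x) = maximalIdeal Q)
    (hinj : Function.Injective (aeval (R := ℂ) x)) (hint : IntegralUpToUnit x)
    (E : Fin d → Derivation ℂ R R)
    (hdet : (Matrix.of fun i l ↦ E i (algebraMap Q R (x l))).det ∉
      (maximalIdeal Q).map (algebraMap Q R))
    (hd : ringKrullDim R = d) : IsRegularLocalRing R := by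
  classical
  set n := Fintype.card G
  set J := (maximalIdeal Q).map (algebraMap Q R)
  have := char_finite (G := G)
  have := Fintype.ofFinite (G →* ℂˣ)
  -- a choice of characters keeps the determinant out of the ideal
  obtain ⟨σ, hσ⟩ : ∃ σ : Fin d → (G →* ℂˣ),
      (Matrix.of fun i l ↦ proj C.ρ (σ i) (E i (algebraMap Q R (x l)))).det ∉ J := by
    by_contra! hall
    refine hdet ?_
    have e : (Matrix.of fun i l ↦ E i (algebraMap Q R (x l)) : Matrix (Fin d) (Fin d) R) =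
        fun i ↦ ∑ χ, fun l ↦ proj C.ρ χ (E i (algebraMap Q R (x l))) :=
      funext fun i ↦ funext fun l ↦ by rw [Finset.sum_apply, sum_proj]; rfl
    rw [e]
    change (Matrix.detRowAlternating : (Fin d → R) [⋀^Fin d]→ₗ[R] R).toMultilinearMap _ ∈ J
    rw [MultilinearMap.map_sum]
    exact J.sum_mem fun σ _ ↦ hall σ
  set D := fun i ↦ comp C.ρ (σ i) (E i) with hDdef
  have hmonoD : ∀ i q, Mono C.ρ (σ i) (D i (algebraMap Q R q)) := fun i q ↦ by
    rw [hDdef, comp_algebraMap]; exact mono_proj C.ρ _ _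
  have hDdet : (Matrix.of fun i l ↦ D i (algebraMap Q R (x l))).det ∉ J := by
    simpa only [hDdef, comp_algebraMap] using hσ
  have hne : ∀ i, ∃ l, D i (algebraMap Q R (x l)) ≠ 0 := fun i ↦ by
    by_contra! h0
    exact hDdet (by rw [Matrix.det_eq_zero_of_row_eq_zero i h0]; exact J.zero_mem)
  choose l0 hl0 using hne
  choose u α hu hα0 hα hfree hgen using fun i ↦ C.exists_gen (hmonoD i _) (hl0 i)
  choose t ht using fun i q ↦ hgen i _ (hmonoD i q)
  have hu0 : ∀ i, u i ≠ 0 := fun i h ↦ hα0 i ((map_eq_zero_iff _ C.inj).mp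
    (by rw [hα i, h, zero_pow Fintype.card_ne_zero]))
  have hcan : ∀ i a b, algebraMap Q R a * u i = algebraMap Q R b * u i → a = b := fun i a b h ↦
    C.inj (mul_right_cancel₀ (hu0 i) h)
  let v : Fin d → Derivation ℂ Q Q := fun i ↦ Derivation.mk'
    { toFun := t i
      map_add' := fun a b ↦ hcan i _ _ (by rw [← ht, map_add, map_add, map_add, add_mul, ← ht, ← ht])
      map_smul' := fun c a ↦ hcan i _ _ (by
        simp only [RingHom.id_apply, Algebra.smul_def]
        rw [← ht, map_mul, map_mul (algebraMap Q R) _ (t i a), mul_assoc, ← ht, ← IsScalarTower.algebraMap_apply,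
          Derivation.leibniz, Derivation.map_algebraMap, smul_zero, add_zero, smul_eq_mul]) }
    fun a b ↦ hcan i _ _ (by
      simp only [LinearMap.coe_mk, AddHom.coe_mk, smul_eq_mul]
      rw [← ht, map_add, map_mul, map_mul (algebraMap Q R) a (t i b), map_mul (algebraMap Q R) b (t i a),
        add_mul, mul_assoc, mul_assoc, ← ht, ← ht,
        Derivation.leibniz, smul_eq_mul, smul_eq_mul])
  have hv : ∀ i q, v i q = t i q := fun i q ↦ rfl
  set V : Matrix (Fin d) (Fin d) Q := Matrix.of fun i l ↦ v i (x l) with hVdef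
  have hfac : (Matrix.of fun i l ↦ D i (algebraMap Q R (x l))).det =
      (∏ i, u i) * algebraMap Q R V.det := by
    have : (Matrix.of fun i l ↦ D i (algebraMap Q R (x l))) =
        Matrix.of fun i l ↦ u i * (algebraMap Q R).mapMatrix V i l := by
      ext i l
      simp only [Matrix.of_apply, RingHom.mapMatrix_apply, Matrix.map_apply, hVdef]
      rw [hv, ht i (x l), mul_comm]
    rw [this, Matrix.det_mul_column, RingHom.map_det]
  have hVu : IsUnit V.det := by
    by_contra h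
    exact hDdet (hfac ▸ J.mul_mem_left _ (Ideal.mem_map_of_mem _ ((mem_maximalIdeal _).mpr h)))
  let F : Frame C d :=
    { D := D, u := u, α := α, v := v, hα := hα, hα0 := hα0, hfree := hfree,
      hmono := fun i ↦ ⟨_, hu i⟩, hD := fun i q ↦ by rw [hv]; exact ht i q,
      hcop := fun b hb h ↦ hDdet (hfac ▸ J.mul_mem_right _ (Ideal.mem_of_dvd _ h
        (Ideal.mem_map_of_mem _ ((mem_maximalIdeal _).mpr hb.not_isUnit)))) }
  -- normalise the parameters linearly
  choose c hc using fun i l ↦ hscal (V i l)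
  let M : Matrix (Fin d) (Fin d) ℂ := Matrix.of c
  have hM : IsUnit M.det := by
    rw [isUnit_iff_ne_zero]
    intro h0
    apply (maximalIdeal.isMaximal Q).ne_top
    refine Ideal.eq_top_of_isUnit_mem _ ?_ hVu
    have e : V.map (Ideal.Quotient.mk (maximalIdeal Q)) =
        (M.map (algebraMap ℂ Q)).map (Ideal.Quotient.mk (maximalIdeal Q)) :=
      Matrix.ext fun i l ↦ Ideal.Quotient.eq.mpr (hc i l)
    rw [← Ideal.Quotient.eq_zero_iff_mem, RingHom.map_det, RingHom.mapMatrix_apply, e,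
      ← RingHom.mapMatrix_apply, ← RingHom.map_det, ← RingHom.mapMatrix_apply, ← RingHom.map_det,
      h0, map_zero, map_zero]
  let N : Matrix (Fin d) (Fin d) ℂ := M⁻¹
  set x' : Fin d → Q := Matrix.vecMul x (N.map (algebraMap ℂ Q)) with hx'
  let L : Matrix (Fin d) (Fin d) ℂ → (Pol d →ₐ[ℂ] Pol d) := fun T ↦
    aeval fun l ↦ ∑ k, X k * MvPolynomial.C (T k l)
  have hL : ∀ T, (aeval (R := ℂ) x).comp (L T) =
      aeval (R := ℂ) (Matrix.vecMul x (T.map (algebraMap ℂ Q))) := fun T ↦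
    algHom_ext fun l ↦ by simp [L, Matrix.vecMul, dotProduct]
  have hxx : Matrix.vecMul x' (M.map (algebraMap ℂ Q)) = x := by
    rw [hx', Matrix.vecMul_vecMul, ← Matrix.map_mul, Matrix.nonsing_inv_mul _ hM,
      Matrix.map_one _ (map_zero _) (map_one _), Matrix.vecMul_one]
  have hLL : ∀ S T, (L S).comp (L T) = L (S * T) := fun S T ↦ algHom_ext fun l ↦ by
    simp only [L, AlgHom.comp_apply, aeval_X, map_sum, map_mul, aeval_C, MvPolynomial.algebraMap_eq,
      Finset.sum_mul, Finset.mul_sum, Matrix.mul_apply, mul_assoc]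
    rw [Finset.sum_comm]
  have hL1 : L 1 = AlgHom.id ℂ _ := algHom_ext fun l ↦ by simp [L, Matrix.one_apply]
  have hLsurj : ∀ p, L N (L M p) = p := fun p ↦ DFunLike.congr_fun
    ((hLL N M).trans ((congrArg L (Matrix.nonsing_inv_mul _ hM)).trans hL1)) p
  have hLinj' : Function.Injective (L N) :=
    Function.LeftInverse.injective (g := L M) fun p ↦ DFunLike.congr_fun
      ((hLL M N).trans ((congrArg L (Matrix.mul_nonsing_inv _ hM)).trans hL1)) p
  have hx'eq : aeval (R := ℂ) x' = (aeval (R := ℂ) x).comp (L N) := (hL N).symm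
  refine Frame.regular F (x := x') (fun i l ↦ ?_) ?_ ?_ ?_ hd
  · have e : (if i = l then (1 : Q) else 0) = ∑ k, algebraMap ℂ Q (c i k * N k l) := by
      rw [← map_sum]
      have : ∑ k, c i k * N k l = (1 : Matrix (Fin d) (Fin d) ℂ) i l := by
        rw [← Matrix.mul_nonsing_inv _ hM]; rfl
      rw [this, Matrix.one_apply]
      split_ifs <;> simp
    have e' : F.v i (x' l) = ∑ k, V i k * algebraMap ℂ Q (N k l) := by
      simp [hx', Matrix.vecMul, dotProduct, F, hVdef, mul_comm]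
    rw [e, e', ← Finset.sum_sub_distrib]
    refine Ideal.sum_mem _ fun k _ ↦ ?_
    rw [map_mul, ← sub_mul]
    exact Ideal.mul_mem_right _ _ (hc i k)
  · rw [hx'eq]; exact hinj.comp hLinj'
  · intro q
    obtain ⟨s, p, hs, hsp, his, hip⟩ := hint q
    have tr : ∀ a, (aeval (R := ℂ) x).toRingHom.IsIntegralElem a →
        (aeval (R := ℂ) x').toRingHom.IsIntegralElem a := by
      rintro a ⟨Φ, hΦ, hΦa⟩
      refine ⟨Φ.map (L M).toRingHom, hΦ.map _, ?_⟩
      rw [Polynomial.eval₂_map, hx'eq]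
      rw [show ((aeval (R := ℂ) x).comp (L N)).toRingHom.comp (L M).toRingHom =
        (aeval (R := ℂ) x).toRingHom from RingHom.ext fun p ↦ congrArg (aeval (R := ℂ) x) (hLsurj p)]
      exact hΦa
    exact ⟨s, p, hs, hsp, tr s his, tr p hip⟩
  · refine le_antisymm (Ideal.span_le.mpr ?_) ?_
    · rintro _ ⟨l, rfl⟩
      change ∑ k, x k * algebraMap ℂ Q (N k l) ∈ maximalIdeal Q
      exact Ideal.sum_mem _ fun k _ ↦ Ideal.mul_mem_right _ _
        (hx ▸ Ideal.subset_span (Set.mem_range_self k))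
    · rw [← hx, Ideal.span_le]
      rintro _ ⟨l, rfl⟩
      rw [show x l = ∑ k, x' k * algebraMap ℂ Q (M k l) from (congrFun hxx l).symm]
      exact Ideal.sum_mem _ fun k _ ↦ Ideal.mul_mem_right _ _
        (Ideal.subset_span (Set.mem_range_self k))

end Vale.Agent.P266.Cover
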