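import Vale.Agent.P266.Obstruction
import Vale.Agent.P266.Cover.Local

/-!
# P266: abelian covers of smooth points

A closed point fixed by a finite commutative group, normal, with regular factorial image in the
quotient, at which the derivation module is projective, is a regular point.
-/

noncomputable section

namespace Vale.Agent.P266.Cover

open MvPolynomial IsLocalRing

universe u

variable {A : Type u} [CommRing A] [Algebra ℂ A]

/-- A derivation extends to a localization. -/
lemma exists_der_localization (m : Ideal A) [m.IsPrime] (D : Derivation ℂ A A) :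
    ∃ E : Derivation ℂ (Localization.AtPrime m) (Localization.AtPrime m),
      ∀ a, E (algebraMap A _ a) = algebraMap A _ (D a) := by
  let R := Localization.AtPrime m
  let j := algebraMap A R
  let φ : A →+* TrivSqZeroExt R R :=
    { toFun := fun a ↦ TrivSqZeroExt.inl (j a) + TrivSqZeroExt.inr (j (D a))
      map_one' := by ext <;> simp
      map_mul' := fun a b ↦ TrivSqZeroExt.ext
        (by simp only [TrivSqZeroExt.fst_add, TrivSqZeroExt.fst_mul, TrivSqZeroExt.fst_inl,
          TrivSqZeroExt.fst_inr, add_zero, map_mul])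
        (by simp only [TrivSqZeroExt.snd_add, TrivSqZeroExt.snd_mul, TrivSqZeroExt.snd_inl,
          TrivSqZeroExt.snd_inr, TrivSqZeroExt.fst_add, TrivSqZeroExt.fst_inl, TrivSqZeroExt.fst_inr,
          add_zero, zero_add, op_smul_eq_smul, smul_eq_mul, Derivation.leibniz, map_add, map_mul])
      map_zero' := by ext <;> simp
      map_add' := fun a b ↦ TrivSqZeroExt.ext
        (by simp only [TrivSqZeroExt.fst_add, TrivSqZeroExt.fst_inl, TrivSqZeroExt.fst_inr, add_zero,
          map_add])
        (by simp only [TrivSqZeroExt.snd_add, TrivSqZeroExt.snd_inl, TrivSqZeroExt.snd_inr, zero_add,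
          map_add]) }
  have hφ : ∀ t : m.primeCompl, IsUnit (φ t) := fun t ↦ by
    rw [TrivSqZeroExt.isUnit_iff_isUnit_fst]
    simpa [φ, j] using IsLocalization.map_units R t
  let L : R →+* TrivSqZeroExt R R := IsLocalization.lift hφ
  have hL : ∀ a, L (j a) = φ a := IsLocalization.lift_eq hφ
  have hfst : ∀ r, (L r).fst = r := fun r ↦ by
    have : (TrivSqZeroExt.fstHom R R R).toRingHom.comp L = RingHom.id R :=
      IsLocalization.ringHom_ext m.primeCompl (RingHom.ext fun a ↦ by
        simp only [RingHom.comp_apply, RingHom.id_apply]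
        change (L (j a)).fst = j a
        simp [hL, φ])
    exact DFunLike.congr_fun this r
  have hc : ∀ c : ℂ, (L (algebraMap ℂ R c)).snd = 0 := fun c ↦ by
    rw [IsScalarTower.algebraMap_apply ℂ A R]
    change (L (j (algebraMap ℂ A c))).snd = 0
    simp [hL, φ]
  refine ⟨Derivation.mk'
    { toFun := fun r ↦ (L r).snd
      map_add' := fun a b ↦ by simp
      map_smul' := fun c a ↦ by
        simp only [Algebra.smul_def, RingHom.id_apply]
        rw [map_mul, TrivSqZeroExt.snd_mul, hfst, hfst, hc, op_smul_eq_smul, smul_zero, add_zero,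
          smul_eq_mul] }
    (fun a b ↦ by
      simp only [LinearMap.coe_mk, AddHom.coe_mk]
      rw [map_mul, TrivSqZeroExt.snd_mul, hfst, hfst, op_smul_eq_smul]), fun a ↦ ?_⟩
  change (L (j a)).snd = _
  simp [hL, φ]
  rfl

/-- The action on the local ring at a fixed point. -/
lemma nonempty_cov (G : Type*) [CommGroup G] [Fintype G] [MulSemiringAction G A] [IsDomain A]
    {P Q R : Type u} [CommRing P] [CommRing Q] [CommRing R] [Algebra P A] [SMulCommClass G P A]
    [Algebra.IsInvariant P A G] (m : Ideal A) [m.IsPrime]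
    (hfix : ∀ (g : G) (a : A), a ∈ m → g • a ∈ m) (n : Ideal P) [n.IsPrime]
    (hn : n = m.comap (algebraMap P A)) [Algebra A R] [IsLocalization.AtPrime R m] [Algebra P Q]
    [IsLocalization.AtPrime Q n] [Algebra ℂ Q] [Algebra ℂ R] [Algebra Q R] [IsScalarTower ℂ Q R]
    [IsLocalRing R] [IsLocalRing Q] [IsDomain R]
    (hQR : ∀ p : P, algebraMap Q R (algebraMap P Q p) = algebraMap A R (algebraMap P A p))
    (hQinj : Function.Injective (algebraMap Q R))
    (hloc : ∀ q, q ∈ maximalIdeal Q → algebraMap Q R q ∈ maximalIdeal R) :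
    Nonempty (Cov G Q R) := by
  classical
  have hjA : Function.Injective (algebraMap A R) :=
    IsLocalization.injective R m.primeCompl_le_nonZeroDivisors
  have hmem : ∀ (g : G) (a : A), g • a ∈ m ↔ a ∈ m := fun g a ↦
    ⟨fun h ↦ by simpa [inv_smul_smul] using hfix g⁻¹ _ h, hfix g a⟩
  have hH : ∀ g : G, m.primeCompl.map (MulSemiringAction.toRingEquiv G A g).toMonoidHom =
      m.primeCompl := fun g ↦ by
    ext a
    refine ⟨?_, fun ha ↦ ⟨g⁻¹ • a, ?_, smul_inv_smul g a⟩⟩
    · rintro ⟨b, hb, rfl⟩
      exact fun h ↦ hb ((hmem g b).mp h)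
    · exact fun h ↦ ha ((hmem g⁻¹ a).mp h)
  let σ : G → (R ≃+* R) := fun g ↦ IsLocalization.ringEquivOfRingEquiv R R _ (hH g)
  have hσ : ∀ g a, σ g (algebraMap A R a) = algebraMap A R (g • a) := fun g a ↦
    IsLocalization.ringEquivOfRingEquiv_eq (hH g) a
  have hσQ : ∀ g q, σ g (algebraMap Q R q) = algebraMap Q R q := fun g q ↦ by
    have : (σ g).toRingHom.comp (algebraMap Q R) = algebraMap Q R :=
      IsLocalization.ringHom_ext n.primeCompl (RingHom.ext fun p ↦ by
        simp only [RingHom.comp_apply, hQR]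
        change σ g (algebraMap A R (algebraMap P A p)) = _
        rw [hσ, smul_algebraMap])
    exact DFunLike.congr_fun this q
  let ρ₀ : G → (R ≃ₐ[Q] R) := fun g ↦ AlgEquiv.ofRingEquiv (f := σ g) (hσQ g)
  have hρ₀ : ∀ g a, ρ₀ g (algebraMap A R a) = algebraMap A R (g • a) := hσ
  have hext : ∀ e e' : R ≃ₐ[Q] R, (∀ a, e (algebraMap A R a) = e' (algebraMap A R a)) → e = e' := by
    intro e e' h
    refine AlgEquiv.ext fun r ↦ ?_
    exact DFunLike.congr_fun (IsLocalization.ringHom_ext m.primeCompl
      (j := e.toRingEquiv.toRingHom) (k := e'.toRingEquiv.toRingHom) (RingHom.ext h)) r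
  refine ⟨
    { ρ :=
        { toFun := ρ₀
          map_one' := hext _ _ fun a ↦ by rw [hρ₀, one_smul]; rfl
          map_mul' := fun g g' ↦ hext _ _ fun a ↦ by
            rw [AlgEquiv.mul_apply, hρ₀, hρ₀, hρ₀, mul_smul] }
      inj := hQinj
      fixed := fun f hf ↦ by
        obtain ⟨⟨a, t⟩, hat⟩ := IsLocalization.surj m.primeCompl f
        set a' := a * ∏ g ∈ Finset.univ.erase (1 : G), g • (t : A)
        set t' := ∏ g : G, g • (t : A) with ht'
        have htP : ∀ g : G, g • t' = t' := fun g ↦ by
          rw [ht', Finset.smul_prod']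
          exact Fintype.prod_equiv (Equiv.mulLeft g) _ _ fun b ↦ by simp [mul_smul]
        have htm : t' ∉ m := fun h ↦ by
          obtain ⟨g, -, hg⟩ := (Ideal.IsPrime.prod_mem_iff).mp h
          exact t.2 ((hmem g t).mp hg)
        have hat' : f * algebraMap A R t' = algebraMap A R a' := by
          rw [ht', ← Finset.mul_prod_erase _ _ (Finset.mem_univ (1 : G)), one_smul, map_mul,
            ← mul_assoc, hat, ← map_mul]
        have haP : ∀ g : G, g • a' = a' := fun g ↦ hjA (by
          have h := congrArg (ρ₀ g) hat'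
          rw [map_mul, hρ₀, hρ₀, htP, show ρ₀ g f = f from hf g, hat'] at h
          exact h.symm)
        obtain ⟨tp, htp⟩ := Algebra.IsInvariant.isInvariant (A := P) t' htP
        obtain ⟨ap, hap⟩ := Algebra.IsInvariant.isInvariant (A := P) a' haP
        let tP : n.primeCompl := ⟨tp, fun h ↦ htm (by rw [← htp]; exact Ideal.mem_comap.mp (hn ▸ h))⟩
        refine ⟨IsLocalization.mk' Q ap tP, ?_⟩
        have hu : algebraMap A R t' ≠ 0 :=
          (IsLocalization.map_units R (⟨t', htm⟩ : m.primeCompl)).ne_zero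
        refine mul_right_cancel₀ hu (Eq.trans ?_ hat'.symm)
        rw [show algebraMap A R t' = algebraMap Q R (algebraMap P Q tP) from by rw [hQR]; exact congrArg _ htp.symm,
          ← map_mul, IsLocalization.mk'_spec, hQR, hap]
      lies_over := hloc }⟩

/-- Scalars modulo the maximal ideal of a local ring of a closed point. -/
lemma exists_scalar_localization {P Q : Type u} [CommRing P] [Algebra ℂ P] [Algebra.FiniteType ℂ P]
    (n : Ideal P) [n.IsMaximal] [CommRing Q] [IsLocalRing Q] [Algebra P Q] [Algebra ℂ Q]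
    [IsScalarTower ℂ P Q] [IsLocalization.AtPrime Q n] (q : Q) :
    ∃ c : ℂ, q - algebraMap ℂ Q c ∈ maximalIdeal Q := by
  obtain ⟨⟨a, t⟩, hat⟩ := IsLocalization.surj n.primeCompl q
  obtain ⟨α, hα⟩ := exists_scalar n a
  obtain ⟨τ, hτ⟩ := exists_scalar n (t : P)
  have hτ0 : τ ≠ 0 := by
    rintro rfl
    exact t.2 (by simpa using hτ)
  refine ⟨α / τ, (Ideal.mul_unit_mem_iff_mem _ (IsLocalization.map_units Q t)).mp ?_⟩
  rw [sub_mul, hat, IsScalarTower.algebraMap_apply ℂ P Q, ← map_mul, ← map_sub,
    IsLocalization.AtPrime.to_map_mem_maximal_iff Q n]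
  have e : a - algebraMap ℂ P (α / τ) * t =
      (a - algebraMap ℂ P α) - algebraMap ℂ P (α / τ) * ((t : P) - algebraMap ℂ P τ) := by
    rw [mul_sub, ← map_mul, div_mul_cancel₀ _ hτ0]; ring
  rw [e]
  exact sub_mem hα (Ideal.mul_mem_left _ _ hτ)

/-- Parameters of a regular point can be taken in the ring. -/
lemma exists_params {P Q : Type u} [CommRing P] (n : Ideal P) [n.IsPrime] [CommRing Q]
    [IsLocalRing Q] [IsNoetherianRing Q] [Algebra P Q] [IsLocalization.AtPrime Q n] {s : ℕ}
    (hs : (maximalIdeal Q).spanFinrank = s) :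
    ∃ g : Fin s → P, (Ideal.span (Set.range g)).map (algebraMap P Q) = maximalIdeal Q := by
  have hQfg : (maximalIdeal Q).FG := IsNoetherian.noetherian (maximalIdeal Q)
  set T := Submodule.generators (maximalIdeal Q)
  have hT := Submodule.span_generators (maximalIdeal Q)
  have hTcard : T.ncard = (maximalIdeal Q).spanFinrank := Submodule.FG.generators_ncard hQfg
  have : Finite T := (Submodule.FG.finite_generators hQfg).to_subtype
  let eT : Fin s ≃ T := (Finite.equivFinOfCardEq
    (show Nat.card T = s by rw [Nat.card_coe_set_eq, hTcard, hs])).symm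
  choose num hnum using fun q : Q ↦ IsLocalization.surj n.primeCompl q
  refine ⟨fun l ↦ (num (eT l)).1, ?_⟩
  rw [map_span_range]
  refine le_antisymm (Ideal.span_le.mpr ?_) ?_
  · rintro _ ⟨l, rfl⟩
    change algebraMap P Q (num (eT l)).1 ∈ maximalIdeal Q
    rw [← hnum]
    exact Ideal.mul_mem_right _ _ (hT ▸ Submodule.subset_span (eT l).2)
  · conv_lhs => rw [← hT]
    refine Submodule.span_le.mpr fun q hq ↦ ?_
    obtain ⟨l, hl⟩ := eT.surjective ⟨q, hq⟩
    have hq' : q * algebraMap P Q (num q).2 ∈
        Ideal.span (Set.range fun l ↦ algebraMap P Q (num (eT l)).1) := by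
      rw [hnum]
      refine Ideal.subset_span ⟨l, ?_⟩
      simp [hl]
    exact (Ideal.mul_unit_mem_iff_mem _ (IsLocalization.map_units Q (num q).2)).mp hq'

/-- Elements of the quotient are integral over parameters over which the cover is finite. -/
lemma integralUpToUnit_localization {P Q : Type u} [CommRing P] [IsDomain P] [Algebra ℂ P]
    [Algebra P A] [IsScalarTower ℂ P A] (hPinj : Function.Injective (algebraMap P A))
    (n : Ideal P) [n.IsPrime] [CommRing Q] [Algebra P Q] [Algebra ℂ Q]
    [IsScalarTower ℂ P Q] [IsLocalization.AtPrime Q n] {r : ℕ} (g : Fin r → P)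
    (hfin : (aeval (R := ℂ) fun l ↦ algebraMap P A (g l)).Finite) :
    IntegralUpToUnit (fun l ↦ algebraMap P Q (g l)) := by
  have hint : ∀ p : P, (aeval (R := ℂ) fun l ↦ algebraMap P Q (g l)).toRingHom.IsIntegralElem
      (algebraMap P Q p) := fun p ↦ by
    obtain ⟨Φ, hΦ, hroot⟩ := (RingHom.Finite.to_isIntegral hfin) (algebraMap P A p)
    have e1 : (aeval (R := ℂ) fun l ↦ algebraMap P A (g l)).toRingHom =
        (algebraMap P A).comp (aeval (R := ℂ) g).toRingHom :=
      RingHom.ext fun f ↦ (MvPolynomial.aeval_algebraMap_apply A g f)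
    have e2 : (aeval (R := ℂ) fun l ↦ algebraMap P Q (g l)).toRingHom =
        (algebraMap P Q).comp (aeval (R := ℂ) g).toRingHom :=
      RingHom.ext fun f ↦ (MvPolynomial.aeval_algebraMap_apply Q g f)
    refine ⟨Φ, hΦ, ?_⟩
    replace hroot : Polynomial.eval₂ ((algebraMap P A).comp (aeval (R := ℂ) g).toRingHom)
      (algebraMap P A p) Φ = 0 := e1 ▸ hroot
    rw [← Polynomial.hom_eval₂, map_eq_zero_iff _ hPinj] at hroot
    rw [e2, ← Polynomial.hom_eval₂, hroot, map_zero]
  intro q
  obtain ⟨⟨a, t⟩, hat⟩ := IsLocalization.surj n.primeCompl q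
  exact ⟨_, _, IsLocalization.map_units Q t, by rw [mul_comm]; exact hat, hint _, hint _⟩

variable [IsDomain A] [Algebra.FiniteType ℂ A]
  (G : Type*) [CommGroup G] [Finite G] [MulSemiringAction G A] [SMulCommClass G ℂ A]

/-- At a fixed normal point over a regular factorial point of the quotient, projectivity of the
derivation module forces regularity. -/
theorem regular_of_abelian_cover (hDer : Module.Projective A (Derivation ℂ A A)) (m : Ideal A)
    [m.IsMaximal] (hfix : ∀ (g : G) (a : A), a ∈ m → g • a ∈ m)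
    (hnormal : IsIntegrallyClosed (Localization.AtPrime m))
    (hreg : IsRegularLocalRing
      (Localization.AtPrime (m.comap (algebraMap (FixedPoints.subalgebra ℂ A G) A))))
    (hufd : UniqueFactorizationMonoid
      (Localization.AtPrime (m.comap (algebraMap (FixedPoints.subalgebra ℂ A G) A)))) :
    IsRegularLocalRing (Localization.AtPrime m) := by
  classical
  have := Fintype.ofFinite G
  set P := FixedPoints.subalgebra ℂ A G
  have hPinj : Function.Injective (algebraMap P A) := Subtype.val_injective
  have hinv : Algebra.IsInvariant P A G := ⟨fun b hb ↦ ⟨⟨b, hb⟩, rfl⟩⟩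
  have hintA : Algebra.IsIntegral P A := Algebra.IsInvariant.isIntegral P A G
  have : Algebra.FiniteType P A := Algebra.FiniteType.of_restrictScalars_finiteType ℂ P A
  have hfinA : Module.Finite P A := Algebra.IsIntegral.finite
  have : Algebra.FiniteType ℂ P :=
    ⟨fg_of_fg_of_fg ℂ P A Algebra.FiniteType.out Module.Finite.fg_top hPinj⟩
  set n := m.comap (algebraMap P A) with hn
  have hnmax : n.IsMaximal := Ideal.isMaximal_comap_of_isIntegral_of_isMaximal m
  have : IsNoetherianRing A := Algebra.FiniteType.isNoetherianRing ℂ A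
  let R := Localization.AtPrime m
  let Q := Localization.AtPrime n
  have : IsNoetherianRing R := IsLocalization.isNoetherianRing m.primeCompl R inferInstance
  let hom : Q →+* R := Localization.localRingHom n m (algebraMap P A) rfl
  let : Algebra Q R := hom.toAlgebra
  have hQR : ∀ p : P, algebraMap Q R (algebraMap P Q p) = algebraMap A R (algebraMap P A p) :=
    fun p ↦ Localization.localRingHom_to_map n m (algebraMap P A) rfl p
  have : IsScalarTower ℂ Q R := IsScalarTower.of_algebraMap_eq fun c ↦ by
    rw [IsScalarTower.algebraMap_apply ℂ P Q, hQR, ← IsScalarTower.algebraMap_apply,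
      ← IsScalarTower.algebraMap_apply]
  have hjA : Function.Injective (algebraMap A R) :=
    IsLocalization.injective R m.primeCompl_le_nonZeroDivisors
  have hjP : Function.Injective (algebraMap P Q) :=
    IsLocalization.injective Q n.primeCompl_le_nonZeroDivisors
  have hQinj : Function.Injective (algebraMap Q R) := by
    rw [injective_iff_map_eq_zero]
    intro q hq
    obtain ⟨⟨p, t⟩, hpt⟩ := IsLocalization.surj n.primeCompl q
    have h1 := congrArg (algebraMap Q R) hpt
    rw [map_mul, hq, zero_mul, hQR, eq_comm, map_eq_zero_iff _ hjA, map_eq_zero_iff _ hPinj] at h1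
    rw [h1, map_zero] at hpt
    exact (mul_eq_zero.mp hpt).resolve_right (IsLocalization.map_units Q t).ne_zero
  have : SMulCommClass G P A := inferInstance
  have : IsNoetherianRing Q := IsLocalization.isNoetherianRing n.primeCompl Q
    (Algebra.FiniteType.isNoetherianRing ℂ P)
  obtain ⟨C⟩ := nonempty_cov G m hfix n rfl (R := R) (Q := Q) hQR hQinj fun q hq ↦ by
    rw [mem_maximalIdeal] at hq ⊢
    exact fun h ↦ hq ((isUnit_map_iff hom q).mp h)
  -- parameters coming from the quotient
  obtain ⟨s, y, hy, hyinj, hyfin⟩ := exists_normalization n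
  let yA : Fin s → A := fun l ↦ algebraMap P A (y l)
  have hyA : ∀ g : Fin s → P, aeval (R := ℂ) (fun l ↦ algebraMap P A (g l)) =
      (IsScalarTower.toAlgHom ℂ P A).comp (aeval (R := ℂ) g) := fun g ↦
    algHom_ext fun l ↦ by simp
  have hyAinj : Function.Injective (aeval (R := ℂ) yA) := by
    rw [hyA]; exact hPinj.comp hyinj
  have hyAfin : (aeval (R := ℂ) yA).Finite := by
    rw [hyA]
    exact RingHom.Finite.comp (RingHom.finite_algebraMap.mpr hfinA) hyfin
  have hdimR := (ringKrullDim_atPrime_of_normalization m yA (fun l ↦ hy l) hyAinj hyAfin).1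
  have hdimQ := (ringKrullDim_atPrime_of_normalization n y hy hyinj hyfin).1
  have hrank : (maximalIdeal Q).spanFinrank = s := by
    have := hreg.spanFinrank_maximalIdeal
    rw [hdimQ] at this
    exact_mod_cast this
  obtain ⟨g₀, hg₀⟩ := exists_params n (Q := Q) hrank
  obtain ⟨δ, hδ⟩ := exists_bound_normalization m yA (fun l ↦ hy l) hyAinj hyAfin
    fun l ↦ algebraMap P A (g₀ l)
  obtain ⟨N, hN, hmap⟩ := perturb n g₀ y hy δ
    (by rw [hg₀]; exact Ideal.le_radical)
  set g := fun l ↦ g₀ l + y l ^ N with hg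
  rw [hg₀] at hmap
  obtain ⟨hinjA, hfinA'⟩ := hδ N hN
  have hgA : (fun l ↦ algebraMap P A (g₀ l) + yA l ^ N) = fun l ↦ algebraMap P A (g l) := by
    funext l; simp [g, yA]
  rw [hgA] at hinjA hfinA'
  have hgn : ∀ l, g l ∈ n := fun l ↦ by
    rw [← Localization.AtPrime.comap_maximalIdeal (I := n), Ideal.mem_comap, ← hmap]
    exact Ideal.mem_map_of_mem _ (Ideal.subset_span ⟨l, rfl⟩)
  -- the residue property
  let gA : Fin s → A := fun l ↦ algebraMap P A (g l)
  let : Algebra (Pol s) A := (aeval (R := ℂ) gA).toRingHom.toAlgebra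
  have : IsScalarTower ℂ (Pol s) A :=
    IsScalarTower.of_algebraMap_eq fun c ↦ ((aeval (R := ℂ) gA).commutes c).symm
  have : Module.Finite (Pol s) A := hfinA'
  have : FaithfulSMul (Pol s) A := (faithfulSMul_iff_algebraMap_injective _ _).mpr hinjA
  have hX : ∀ l, algebraMap (Pol s) A (MvPolynomial.X l) = gA l := fun l ↦ aeval_X gA l
  obtain ⟨r, h, v, hh, hspan, hindep⟩ := exists_frame hDer m
  obtain rfl : r = s := frame_card h (fun h0 ↦ hh (h0 ▸ m.zero_mem)) v hspan hindep
  choose E hE using fun i ↦ exists_der_localization m (v i)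
  let x : Fin r → Q := fun l ↦ algebraMap P Q (g l)
  have hx : Ideal.span (Set.range x) = maximalIdeal Q := by
    rw [← hmap, map_span_range]
  have hxj : ∀ l, algebraMap Q R (x l) = algebraMap A R (gA l) := fun l ↦ hQR _
  have hdet : (Matrix.of fun i l ↦ E i (algebraMap Q R (x l))).det ∉
      (maximalIdeal Q).map (algebraMap Q R) := by
    have e : (Matrix.of fun i l ↦ E i (algebraMap Q R (x l))) =
        (valMatrix (d := r) v).map (algebraMap A R) :=
      Matrix.ext fun i l ↦ by
        simp only [Matrix.of_apply, Matrix.map_apply, valMatrix, hX, hxj]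
        exact hE i (gA l)
    have e2 : Ideal.span (Set.range fun l ↦ algebraMap Q R (x l)) =
        (Ideal.span (Set.range gA)).map (algebraMap A R) := by
      rw [map_span_range]
      exact congrArg (fun f ↦ Ideal.span (Set.range f)) (funext hxj)
    rw [e, ← RingHom.mapMatrix_apply, ← RingHom.map_det, ← hx,
      map_span_range (algebraMap Q R) x, e2, mem_map_atPrime_iff]
    rintro ⟨t, ht, htm⟩
    refine det_not_mem (d := r) m (fun l ↦ by rw [hX]; exact hgn l) h hh v (fun D ↦ ?_) t ht ?_
    · obtain ⟨c, hc⟩ := hspan D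
      refine ⟨1, c, fun a ↦ ?_⟩
      have := congrArg (fun F : Derivation ℂ A A ↦ F a) hc
      simpa [der_sum_apply] using this
    · simpa only [hX] using htm
  have hxev : aeval (R := ℂ) x = (IsScalarTower.toAlgHom ℂ P Q).comp (aeval (R := ℂ) g) :=
    algHom_ext fun l ↦ by simp [x]
  have hginj : Function.Injective (aeval (R := ℂ) g) := by
    rw [hyA] at hinjA
    exact Function.Injective.of_comp (f := algebraMap P A) hinjA
  have hxinj : Function.Injective (aeval (R := ℂ) x) := by
    rw [hxev]; exact hjP.comp hginj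
  exact Cov.regular (C := C) (d := r) (fun q ↦ exists_scalar_localization n q) x hx hxinj
    (integralUpToUnit_localization hPinj n g hfinA') E hdet hdimR

end Vale.Agent.P266.Cover
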